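import Vale.Agent.P228.Defs
import Vale.Agent.P228.Var.Holder

open Vale.Agent.P228

namespace Vale.Agent.Results.P228.HilbertSmithVariation

/-- No faithful action of `ℤ_[p]` on a connected manifold by homeomorphisms each of which has
vanishing `(n+2)`-variation, or each of which is locally Hölder of exponent above `n/(n+2)`. -/
theorem result (p : ℕ) [Fact p.Prime] (n : ℕ) (hn : 1 ≤ n) (M : Type*) [TopologicalSpace M]
    [T2Space M] [ConnectedSpace M] [ChartedSpace (EuclideanSpace ℝ (Fin n)) M]
    (act : ℤ_[p] → M → M) (hcont : Continuous fun z : ℤ_[p] × M => act z.1 z.2)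
    (hzero : ∀ x, act 0 x = x) (hadd : ∀ a b x, act (a + b) x = act a (act b x))
    (hreg : (∀ a, VanishingVariation n (act a)) ∨ ∀ a, HolderAboveCritical n (act a)) :
    (∃ k : ℕ, ∀ a x, act ((p : ℤ_[p]) ^ k * a) x = x) ∧ ¬ Function.Injective act := by
  have : NeZero n := ⟨by omega⟩
  have hv : ∀ a, VanishingVariation n (act a) := by
    rcases hreg with h | h
    · exact h
    · exact fun a => vanishingVariation_of_holder (h a)
  obtain ⟨k, hk⟩ := exists_trivial (n := n) ⟨hcont, hzero, hadd⟩ hv
  refine ⟨⟨k, hk⟩, fun hinj => ?_⟩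
  have h1 : act ((p : ℤ_[p]) ^ k * 1) = act 0 := funext fun x => by rw [hk 1 x, hzero x]
  have h2 := hinj h1
  rw [mul_one] at h2
  exact pow_ne_zero k (Nat.cast_ne_zero.2 (Fact.out : p.Prime).ne_zero) h2

end Vale.Agent.Results.P228.HilbertSmithVariation
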